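import Vale.Agent.P216.H269.D2V

/-!
# The block [D2] from the degree-wise form of (G3)

`G3Q`: for every even degree `q` separately, `gM^* q^*` is injective on the tower `Y` up to a
shift.  `d2_VQ` = `H269.d2_V` with `G3Q` instead of `G3P`.
-/

namespace Vale.Agent.P216.H971T

open AS B64 Set GM L250 Q633 H828C BoundedContinuousFunction B609 H288 H494 DV706 H269

section Props

variable {M : Type} [MetricSpace M] {f : C(M, S3)} {K : ℝ} (hK : 0 ≤ K)
  (hf : ∀ x y, dist (f x) (f y) ≤ K * dist x y)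

/-- (G3), degree by degree, in even degrees. -/
def G3Q (x₀ : M) (k : Type) [Field k] : Prop :=
  ∀ q : ℕ, q % 2 = 0 → ∀ s : ℝ, ∃ s' : ℝ, ∃ h : s ≤ s', ∃ T : ℝ, 0 < T ∧ ∃ hT : K * T ≤ s',
    ∀ hg : UMap (PS.P x₀ x₀ T) (XL M T) (MR.gM T), ∀ z : HU k (Y s') q,
      hpull k hg q (hpull k (umap_qm hK hf T) q (hres k (Y_mono hT) q z)) = 0 →
        hres k (Y_mono h) q z = 0

end Props

variable {M : Type} [MetricSpace M] [CompactSpace M]

section

variable {f : C(M, S3)} {K : ℝ} (hK : 0 < K) (hf : ∀ x y, dist (f x) (f y) ≤ K * dist x y)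
  {k : Type} [Field k] {B : ℝ}

/-- **The contract `KOut`** from the degree-wise (G3). -/
noncomputable def kOutQ (hB : 0 ≤ B) {x₀ : M} {B' : ℝ} {O : OmegaOut M 2 x₀ B' k}
    (G1 : G1P k) (G2 : G2P hK.le hf O) (G3 : G3Q hK.le hf x₀ k) (X : XOut2 M B k) :
    KOut k (XL M) (L250.rev : LM M → LM M) X.g where
  E' := EY
  K j := Y (K * j)
  mono _ _ h := Y_mono (mul_le_mul_of_nonneg_left (Nat.cast_le.2 h) hK.le)
  θ' := rv
  uθ' _ := umap_rv _
  θθ' _ w _ := rv_rv w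
  q := qm f
  uq _ _ h := umap_q hK hf h
  qθ _ g _ := qm_rev f g
  G1 n hn j := by
    obtain ⟨s', h, hG⟩ := G1 (K * j)
    obtain ⟨j', hj'⟩ := exists_nat_ge (max (j : ℝ) (s' / K))
    have h1 : j ≤ j' := Nat.cast_le.1 ((le_max_left _ _).trans hj')
    have h2 : s' ≤ K * j' := by
      have := (le_max_right _ _).trans hj'
      rwa [div_le_iff₀' hK] at this
    refine ⟨j', h1, fun y => ?_⟩
    have := hG n hn (hres k (Y_mono h2) n y)
    rwa [res_res] at this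
  G2 n hn t j := exists_lift hK hf hB G2 X hn t j
  G3 n hn j := by
    obtain ⟨s', h, T, hT0, hT, hG⟩ := G3 n hn (K * j)
    obtain ⟨j', hj'⟩ := exists_nat_ge (max (j : ℝ) (max (s' / K) T))
    have h1 : j ≤ j' := Nat.cast_le.1 ((le_max_left _ _).trans hj')
    have h2 : s' ≤ K * j' := by
      have := ((le_max_left _ _).trans (le_max_right _ _)).trans hj'
      rwa [div_le_iff₀' hK] at this
    have h3 : T ≤ j' := ((le_max_right _ _).trans (le_max_right _ _)).trans hj'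
    refine ⟨j', h1, T, h3, fun z hz => ?_⟩
    have e : hpull k (umap_qm hK.le hf T) n (hres k (Y_mono hT) n (hres k (Y_mono h2) n z)) =
        hpull k (umap_q hK hf h3) n z := by
      obtain ⟨z, hz', rfl⟩ := H.exists_mk z
      rfl
    have := hG (umap_gM x₀ hT0) (hres k (Y_mono h2) n z) (by rw [e, hz, map_zero])
    rwa [res_res] at this

/-- **The field `d2`.** -/
theorem d2_fieldQ (hk : ∀ c : k, c = 0 ∨ c = 1) (hB : 0 < B) (X : XOut2 M B k) {x₀ : M} {B' : ℝ}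
    {O : OmegaOut M 2 x₀ B' k} (G1 : G1P k) (G2 : G2P hK.le hf O) (G3 : G3Q hK.le hf x₀ k)
    {n : ℕ} (hn : n % 2 = 0) {s t : ℝ} (hst : s ≤ t)
    (σ : Hr (a0 (LM M)) (c0 k) (XL M t) (XL M s) (n + 2)) {lam : k}
    (hσ : jU (c0 k) (XL M t) (XL M s) (n + 2) σ = lam • X.g (n + 2) t)
    (om : HU k (XL M s) (n + 1))
    (hom : δU (c0 k) (XL_mono hst) (KOut.inv_a0 _) (n + 1) om =
      σ + pullR (c0 k) (umap_rev t) (XL_mono hst) (umap_rev s).mapsX (n + 2) σ) :
    ∃ om' : HU k (XL M t) (n + 1),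
      hres k (XL_mono hst) (n + 1) (om' + hpull k (umap_rev t) (n + 1) om') =
        om + hpull k (umap_rev s) (n + 1) om :=
  d2_of_kOut hk hB X (kOutQ hK hf hB.le G1 G2 G3 X) hn hst σ hσ om hom

end

variable (G : GeoList M)
  (hD : DescentStmt (Hol.triv : Hol M) G) {k : Type} [Field k] {p : ℕ} (hp : 0 < p)

/-- **Block [D2]**. -/
theorem d2_VQ {f : C(M, S3)} {K : ℝ} (hK : 0 < K)
    (hf : ∀ x y, dist (f x) (f y) ≤ K * dist x y) {B : ℝ}
    (hk : ∀ c : k, c = 0 ∨ c = 1) (hB : 0 < B) (X : XOut2 M B k) {x₀ : M} {B' : ℝ}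
    {O : OmegaOut M 2 x₀ B' k} (G1 : G1P k) (G2 : G2P hK.le hf O) (G3 : G3Q hK.le hf x₀ k)
    (i : ℕ) (s t : ℝ) (h : s ≤ t) (om : ((S0 G hD).P k p hp s).HH (2 * i + 3))
    (g : ((S0 G hD).Q k p hp h).HH (2 * i + 3 + 1))
    (hg : (S0 G hD).relJ k p hp h (2 * i + 3 + 1) g ∈
      LinearMap.range ((RotS.TH (S0 G hD) k (2 * i + 3 + 1)).ev t))
    (hom : (S0 G hD).relDel k p hp h (2 * i + 3) om =
      g + (S0 G hD).relTh k p hp h (2 * i + 3 + 1) g) :
    ∃ om' : ((S0 G hD).P k p hp t).HH (2 * i + 3),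
      (S0 G hD).relRes k p hp h (2 * i + 3)
          (om' + (S0 G hD).absTh k p hp t (2 * i + 3) om') =
        om + (S0 G hD).absTh k p hp s (2 * i + 3) om := by
  obtain ⟨lam, hlam⟩ := exists_lam G hD hB X _ t _ hg
  exact d2_sheet_of G hD hp X (n := 2 * i + 2) h
    (fun σ lam hσ om hom => d2_fieldQ hK hf hk hB X G1 G2 G3 (by omega) h σ hσ om hom)
    om g hlam hom

end Vale.Agent.P216.H971T
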