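import Vale.Agent.P216.H971T.Nx3
import Vale.Agent.P216.H787.Omega

/-!
# P216-T, row Nx (4): the classes of the based loops of `A` pull back to non-zero classes of `N`
-/

set_option linter.all false

open Finsupp Set BoundedContinuousFunction

namespace Vale.Agent.P216.H971T

open Vale.Agent.P216.Sl Vale.Agent.P216.PS Vale.Agent.P216.N929 Vale.Agent.P216.H977C
open Vale.Agent.P216.Crs
open Vale.Agent.P216.H250 (catR)
open Vale.Agent.P216.B64 (HU hres hpull UMap OmegaOut a0 c0)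
open Vale.Agent.P216.AS (IsMap)

variable {A N : Type} [MetricSpace A] [CompactSpace A] [MetricSpace N]
  {n : ℕ} {f : N → A} {K : ℝ}

theorem LipK.umap (F : LipK f K) (a b : N) (T : ℝ) :
    UMap (P a b T) (P (f a) (f b) (K * T)) (pf f K) := by
  have hK := F.1
  refine ⟨fun _ hw => F.pf_mem hw, fun e => e.elim, fun ε hε => ⟨ε / K, div_pos hε hK,
    fun w hw w' hw' hd => ?_⟩⟩
  rw [lt_div_iff₀ hK] at hd
  exact (F.dist_pf_le hw.1 hw'.1).trans_lt (by linarith)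

variable [CompactSpace N] {k : Type} [Field k]

theorem not_exL_zero {X : Set (ℝ →ᵇ N)} (hX : X.Nonempty) (b : Bool) (G : Geo A n)
    (τ : Tau k A n G.ρ₁) :
    ¬ ExL X (0 * (n - 1)) fun l => om G τ b 0 (l.map (pf f K)) := by
  obtain ⟨w, hw⟩ := hX
  rw [Nat.zero_mul]
  intro hE
  have h1 := exL_zero hE hw
  rw [List.map_cons, List.map_nil, om_zero_apply] at h1
  exact one_ne_zero h1

/-- **All the classes** `om b j` are detected by images of cycles of paths of `N`. -/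
theorem ne_all [SimplyConnectedSpace A] (G : Geo A n) (τ : Tau k A n G.ρ₁) (F : LipK f K) {x' : N}
    {y' : Bool → N} (hx' : f x' = G.x₀) (hy' : ∀ b, f (y' b) = G.y b) {s D : ℝ} (hs : 0 ≤ s)
    (hD : 0 ≤ D) (hne : ∀ a b : N, (P a b D).Nonempty)
    (ha : ∀ b, ∃ ε₁ > 0, ∀ ε, 0 < ε → ε ≤ ε₁ → ∃ a : Ch k (ℝ →ᵇ N),
      Cy (P (y' b) (y' b) s) ε (n - 1) a ∧ ∀ ι, Edge 0 (K * s) (K * ε) ι →
        ev (fun l => τ.f (l.map (evp (G.y (!b))))) (sh (mp (pf f K) a) ι) = 1) (j : ℕ) :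
    ∀ b, ∃ c : ℝ, 0 ≤ c ∧ ¬ ExL (P x' (y' b) c) (j * (n - 1))
      fun l => om G τ b j (l.map (pf f K)) := by
  induction j with
  | zero => exact fun b => ⟨D, hD, not_exL_zero (hne _ _) b G τ⟩
  | succ j ih =>
    intro b
    obtain ⟨c, hc, h⟩ := ih (!b)
    obtain ⟨v, hv⟩ := hne (y' (!b)) (y' b)
    exact ⟨c + D + s, by positivity, up_f G τ F hx' hy' b j hc hD hs hv (ha b) h⟩

/-- From the paths to the loops. -/
theorem loop_ne [SimplyConnectedSpace A] (G : Geo A n) (τ : Tau k A n G.ρ₁) (F : LipK f K) {x' : N}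
    {y' : Bool → N} (hx' : f x' = G.x₀) (hy' : ∀ b, f (y' b) = G.y b) (b : Bool) (j : ℕ)
    {c D' DA : ℝ} (hc : 0 ≤ c) (hD' : 0 ≤ D') (hDA : 0 ≤ DA) {v' : ℝ →ᵇ N}
    (hv' : v' ∈ P (y' b) x' D') {u : ℝ →ᵇ A} (hu : u ∈ P G.x₀ (G.y b) DA)
    (h : ¬ ExL (P x' (y' b) c) (j * (n - 1)) fun l => om G τ b j (l.map (pf f K))) :
    ¬ ExL (P x' x' (c + D')) (j * (n - 1))
      fun l => om G τ b j ((l.map (pf f K)).map fun w => cat (K * (c + D')) w u) := by
  have hK := F.1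
  rw [← ex_iff] at h ⊢
  rintro ⟨ε, hε, hex⟩
  refine h ⟨min ε (omε G τ b j / K), lt_min hε (div_pos (omε_pos G τ b j) hK), fun z hz => ?_⟩
  set ε' := min ε (omε G τ b j / K) with hε'
  have hεω : K * ε' ≤ omε G τ b j := by
    have h1 : ε' ≤ omε G τ b j / K := min_le_right _ _
    rw [le_div_iff₀ hK] at h1
    linarith
  -- the cycle of loops
  have hz2 : Cy (P x' x' (c + D')) ε (j * (n - 1)) (mp (fun w => cat c w v') z) := by
    refine ⟨map_mem _ (fun l hl => ?_) hz.1, ?_⟩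
    · rw [mp_single]
      refine single_mem ⟨by rw [List.length_map, hl.1], fun w hw => ?_, fun w hw w' hw' => ?_⟩ _
      · obtain ⟨x, hx, rfl⟩ := List.mem_map.1 hw
        exact cat_mem hc hD' (hl.2.1 x hx) hv'
      · obtain ⟨x, hx, rfl⟩ := List.mem_map.1 hw
        obtain ⟨y, hy, rfl⟩ := List.mem_map.1 hw'
        refine (dist_cat_cat_le (hl.2.1 x hx).1 (hl.2.1 y hy).1 hv'.1 hv'.1 ?_ ?_).trans_lt ?_
        · rw [eq_right (hl.2.1 x hx) le_rfl, eq_left hv' le_rfl]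
        · rw [eq_right (hl.2.1 y hy) le_rfl, eq_left hv' le_rfl]
        · rw [dist_self]
          exact max_lt ((hl.2.2 x hx y hy).trans_le (min_le_left _ _)) hε
    · rw [bd_mp]
      refine map_mem _ (fun l hl => ?_) hz.2
      rw [mp_single]
      exact single_mem (by
        have : l = [] := List.length_eq_zero_iff.1 hl
        rw [this]
        rfl) _
  have h0 := hex _ hz2
  rw [ev_mp] at h0
  -- the image
  have hzA : Cy (P G.x₀ (G.y b) (K * c)) (K * ε') (j * (n - 1)) (mp (pf f K) z) := by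
    have := F.cy hz
    rwa [hx', hy'] at this
  have hzA' : Cy (P G.x₀ (G.y b) (K * c)) (omε G τ b j) (j * (n - 1)) (mp (pf f K) z) :=
    hzA.mono le_rfl hεω
  have hvA : pf f K v' ∈ P (G.y b) G.x₀ (K * D') := by
    have := F.pf_mem hv'
    rwa [hx', hy'] at this
  have hKc : 0 ≤ K * c := mul_nonneg hK.le hc
  have hKD : 0 ≤ K * D' := mul_nonneg hK.le hD'
  have hβ := cat_mem hKD hDA hvA hu
  obtain ⟨D, hD, -, hj⟩ := H250.pi0 (M := A) (G.hr.trans G.hrρ) G.seg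
  have hjo := hj (G.y b) (G.y b) (K * D' + DA) (by positivity) _ hβ (cst (G.y b)) (cst_mem _ _)
  have key := ev_cat_joined (eta := om G τ b j) hKc (by positivity : 0 ≤ K * D' + DA + D)
    (omε_pos G τ b j) (om_coc G τ b j _) hjo hzA'
  rw [ev_mp, ev_mp] at key
  have e1 : ev (fun l => om G τ b j (l.map (pf f K))) z =
      ev (fun l => om G τ b j ((l.map (pf f K)).map fun y => cat (K * c) y (cst (G.y b)))) z := by
    refine ev_congr (fun l hl => ?_) hz.1
    congr 1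
    rw [List.map_map]
    refine List.map_congr_left fun w hw => ?_
    have hw' : pf f K w ∈ P G.x₀ (G.y b) (K * c) := by
      have := F.pf_mem (hl.2.1 w hw)
      rwa [hx', hy'] at this
    exact (Crs.cat_cst hw').symm
  rw [e1, ← key, ← h0]
  refine ev_congr (fun l hl => ?_) hz.1
  congr 1
  rw [List.map_map, List.map_map, List.map_map]
  refine List.map_congr_left fun w hw => ?_
  have hw' : pf f K w ∈ P G.x₀ (G.y b) (K * c) := by
    have := F.pf_mem (hl.2.1 w hw)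
    rwa [hx', hy'] at this
  show cat (K * c) (pf f K w) (cat (K * D') (pf f K v') u) =
    cat (K * (c + D')) (pf f K (cat c w v')) u
  rw [F.pf_cat (hl.2.1 w hw).1 hv'.1 (by rw [eq_right (hl.2.1 w hw) le_rfl, eq_left hv' le_rfl]),
    mul_add, cat_assoc' hKc hKD hDA hw' hvA hu]

/-- **Row Nx**: the classes of the based loops of `A` and their images. -/
theorem exists_om_pull [SimplyConnectedSpace A] [SimplyConnectedSpace N] {ρA ρN : ℝ}
    (hρA : 0 < ρA) (hUA : LS.UniqSeg A ρA) (hρN : 0 < ρN) (hUN : LS.UniqSeg N ρN) (hn : 2 ≤ n)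
    (F : LipK f K) {x' a' b' : N} (h1 : f x' ≠ f a') (h2 : f x' ≠ f b') (h3 : f a' ≠ f b')
    (hτ : ∀ ρ₁ > 0, ∃ τ : Tau k A n ρ₁,
      ∀ y : A, ¬ ExL (univ : Set N) n fun l => τ.f (l.map fun x => (f x, y)))
    (hE : ∃ s : ℝ, 0 ≤ s ∧ ∀ (ξ : List N → k) (ε : ℝ), 0 < ε → Nrm ξ →
      Coc (univ : Set N) ε n ξ → ¬ ExL (univ : Set N) n ξ → ∀ M : ℕ, 1 / ((M : ℝ) + 1) < ε / 4 →
        ∀ a b : N, ¬ ExL (P a b s) (n - 1) (H140.eta M ξ)) :
    ∃ (B : ℝ) (_ : 0 < B) (O : OmegaOut A (n - 1) (f x') B k), ∀ j, ∃ T > 0,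
      hpull k (F.umap x' x' T) (j * (n - 1)) (O.om j (K * T)) ≠ 0 := by
  have hK := F.1
  obtain ⟨G, hG0, hG⟩ : ∃ G : Geo A n, G.x₀ = f x' ∧
      ∀ c, G.y c = f (bif c then a' else b') := by
    have d1 : 0 < dist (f x') (f a') := dist_pos.2 h1
    have d2 : 0 < dist (f x') (f b') := dist_pos.2 h2
    have d3 : 0 < dist (f a') (f b') := dist_pos.2 h3
    set m := min (ρA / 4) (min (dist (f x') (f a')) (min (dist (f x') (f b'))
      (dist (f a') (f b')))) with hm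
    have e0 : m ≤ ρA / 4 := min_le_left _ _
    have e1 : m ≤ dist (f x') (f a') := (min_le_right _ _).trans (min_le_left _ _)
    have e2 : m ≤ dist (f x') (f b') :=
      (min_le_right _ _).trans ((min_le_right _ _).trans (min_le_left _ _))
    have e3 : m ≤ dist (f a') (f b') :=
      (min_le_right _ _).trans ((min_le_right _ _).trans (min_le_right _ _))
    have hm0 : 0 < m := lt_min (by linarith) (lt_min d1 (lt_min d2 d3))
    refine ⟨⟨ρA, m, ρA / 2, f x', fun c => f (bif c then a' else b'), hUA, by linarith,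
      by linarith, hm0, by linarith, ?_, ?_, hn⟩, rfl, fun _ => rfl⟩
    · rintro (_ | _)
      · exact e2
      · exact e1
    · rintro (_ | _)
      · exact e3.trans (by rw [dist_comm]; exact le_rfl)
      · exact e3
  obtain ⟨τ, hτ⟩ := hτ G.ρ₁ G.h1
  obtain ⟨s, hs, hE⟩ := hE
  obtain ⟨D, hD, hne, hj⟩ := H250.pi0 (M := A) (G.hr.trans G.hrρ) G.seg
  obtain ⟨D', hD', hne', -⟩ := H250.pi0 (M := N) hρN hUN
  have hIs : IsPi A D := ⟨hD, hne, hj⟩
  set y' : Bool → N := fun c => bif c then a' else b' with hy'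
  have hyG : ∀ b, f (y' b) = G.y b := fun b => (hG b).symm
  have ha := fun b => ha_f G τ F (y' := y') hyG hτ hs hE b
  have hKs : 0 ≤ K * s := mul_nonneg hK.le hs
  -- the classes of `A`
  have haA : ∀ b, ∃ ε₁ > 0, ∀ ε, 0 < ε → ε ≤ ε₁ → ∃ a : Ch k (ℝ →ᵇ A),
      Cy (P (G.y b) (G.y b) (K * s)) ε (n - 1) a ∧ ∀ ι, Edge 0 (K * s) ε ι →
        ev (fun l => τ.f (l.map (evp (G.y (!b))))) (sh a ι) = 1 := by
    intro b
    obtain ⟨ε₁, hε₁, h⟩ := ha b
    refine ⟨K * ε₁, mul_pos hK hε₁, fun ε hε hε' => ?_⟩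
    obtain ⟨a, ha1, ha2⟩ := h (ε / K) (div_pos hε hK) (by
      rw [div_le_iff₀ hK]
      linarith)
    have e : K * (ε / K) = ε := by field_simp
    rw [e] at ha2
    have h3 := F.cy ha1
    rw [hyG, e] at h3
    exact ⟨_, h3, ha2⟩
  let S : OmSys k A (n - 1) G.r (D + K * s) G.x₀ τ.f :=
    omSys G τ Crs.cross (N := n - 1) (by omega) (fun _ => D) (fun _ => K * s) (fun _ => hD)
      (fun _ => hKs) (fun _ => rfl) (fun c => hne _ _) haA
  have eN : n - 1 + 1 = n := by omega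
  have htau : IsTau (n - 1 + 1) G.ρ₁ τ.ε τ.f := by
    rw [eN]
    exact ⟨τ.nrm, τ.coc, fun l _ _ h => τ.supp l h⟩
  let O' : OmegaOut A (n - 1) G.x₀ (OmSys.BB G.r (D + K * s) D) k :=
    S.omegaOut (r₀ := G.ρ₁) (εt := τ.ε) (D := D) G.seg G.hr G.hrρ G.h1r τ.hε htau
      hIs (by linarith) (by omega)
  have hBB : 0 < OmSys.BB G.r (D + K * s) D := by
    have := G.hr
    unfold OmSys.BB
    linarith
  have main : ∀ j, ∃ T > 0, ∀ hp : UMap (P x' x' T) (P G.x₀ G.x₀ (K * T)) (pf f K),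
      hpull k hp (j * (n - 1)) (O'.om j (K * T)) ≠ 0 := by
    intro j
    obtain ⟨c, hc, h⟩ := ne_all G τ F (x' := x') hG0.symm hyG hs hD' hne' ha j false
    obtain ⟨v', hv'⟩ := hne' (y' false) x'
    have h4 := loop_ne G τ F hG0.symm hyG false j (c := c + 1) (by linarith) hD' hD hv'
      (S.v_mem hIs false) (fun he => h (he.mono (P_mono (by linarith))))
    refine ⟨c + 1 + D', by linarith, fun hp h5 => h4 ?_⟩
    have hKT : 0 ≤ K * (c + 1 + D') := by positivity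
    have e1 : O'.om j (K * (c + 1 + D')) = cls (a0 _) (c0 k) (S.omf hIs false j _)
      (S.omf_coc hIs false j _) := rfl
    rw [e1] at h5
    have h6 : cls (a0 _) (c0 k) _ ((S.omf_coc hIs false j (K * (c + 1 + D'))).map hp) = 0 := by
      rw [← pull_cls hp]
      exact h5
    obtain ⟨g, hg, ε, hε, h8⟩ := cls_eq_zero.1 h6
    refine ⟨g, hg, ε, hε, fun l hl hs => ?_⟩
    rw [← h8 l hl hs]
    show _ = om G τ false j ((l.map (pf f K)).map (catR (max (K * (c + 1 + D')) 0) (S.v hIs false)))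
    rw [max_eq_left hKT]
    rfl
  have fin : ∀ a₀ : A, a₀ = G.x₀ → ∃ (B : ℝ) (_ : 0 < B) (O : OmegaOut A (n - 1) a₀ B k),
      ∀ j, ∃ T > 0, ∀ hp : UMap (P x' x' T) (P a₀ a₀ (K * T)) (pf f K),
        hpull k hp (j * (n - 1)) (O.om j (K * T)) ≠ 0 := by
    rintro _ rfl
    exact ⟨_, hBB, O', main⟩
  obtain ⟨B, hB, O, h⟩ := fin _ hG0.symm
  refine ⟨B, hB, O, fun j => ?_⟩
  obtain ⟨T, hT, h⟩ := h j
  exact ⟨T, hT, h _⟩

end Vale.Agent.P216.H971T
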