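import Vale.Agent.P216.H971T.G3Q
import Vale.Agent.P216.H971T.Nx4
import Vale.Agent.P216.H799.XOut2

/-!
# P216-T: (G2) and (G3) for `N` through a Lipschitz map `N → A`

`A` is a space with (G2), (G3) for `f0 : C(A, S3)` (the round sphere), `f' : C(N, A)` a Lipschitz
map which pulls the classes of the based loops of `A` back to non-zero classes of `N`.
-/

set_option linter.all false

open Set BoundedContinuousFunction

namespace Vale.Agent.P216.H971T

open AS B64 GM L250 Q633 H828C H269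

/-- `OmegaOut` with a larger constant. -/
noncomputable def omUp {M : Type} [MetricSpace M] {m : ℕ} {x₀ : M} {B B' : ℝ} {k : Type} [Field k]
    (hB : 0 ≤ B) (h : B ≤ B') (O : OmegaOut M m x₀ B k) : OmegaOut M m x₀ B' k where
  om := O.om
  res_om := O.res_om
  span j t ht hh z := by
    obtain ⟨c, hc⟩ := O.span j t ht (PS.P_mono (by linarith))
      (hres k (PS.P_mono (by linarith)) (j * m) z)
    exact ⟨c, by rw [← hc, res_res]⟩
  zero d hd t ht hh z := by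
    have := O.zero d hd t ht (PS.P_mono (by linarith)) (hres k (PS.P_mono (by linarith)) d z)
    rwa [res_res] at this
  om_ne := O.om_ne
  up j t ht h0 := O.up j t ht (by
    rw [← O.res_om j (t + B) (t + B') (by linarith), h0, map_zero])
  down j t ht h0 := O.down j t ht (by
    rw [← O.res_om (j + 1) (t + B) (t + B') (by linarith), h0, map_zero])

variable {A N : Type} [MetricSpace A] [CompactSpace A] [MetricSpace N] [CompactSpace N]
  {f' : C(N, A)} {K' : ℝ} {f0 : C(A, S3)} {K0 : ℝ}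

/-- the map to the quaternions commutes with the map of the based loops -/
theorem qm_gM_pf (F : LipK f' K') {s : ℝ} (hs : 0 ≤ s) {x₀ : N} {w : ℝ →ᵇ N}
    (hw : w ∈ PS.P x₀ x₀ s) :
    qm (f0.comp f') (MR.gM s w) = qm f0 (MR.gM (K' * s) (pf f' K' w)) := by
  have hK := F.1
  have hw1 : w ∈ MV337.FL N s := MV337.P_subset_FL hw
  have hw2 : pf f' K' w ∈ MV337.FL A (K' * s) := MV337.P_subset_FL (F.pf_mem hw)
  have hs2 : 0 ≤ K' * s := mul_nonneg hK.le hs
  have e : ∀ σ, fn (MR.gM (K' * s) (pf f' K' w)) σ = f' (fn (MR.gM s w) σ) := by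
    intro σ
    rw [MR.fn_gM hs2 hw2, MR.fn_gM hs hw1, F.pf_apply hw.1, mul_assoc,
      mul_div_cancel_left₀ _ hK.ne']
  refine ext_EY fun σ => ?_
  rw [fn_qm, fn_qm, e, e]
  rfl

variable (F : LipK f' K') (hK0 : 0 < K0) (hf0 : ∀ x y, dist (f0 x) (f0 y) ≤ K0 * dist x y)
  {k : Type} [Field k]

include F hK0 hf0 in
omit [CompactSpace A] [CompactSpace N] in
theorem lip_comp (x y : N) : dist ((f0.comp f') x) ((f0.comp f') y) ≤ K0 * K' * dist x y := by
  have h1 := hf0 (f' x) (f' y)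
  have h2 := F.2 x y
  calc dist (f0 (f' x)) (f0 (f' y)) ≤ K0 * dist (f' x) (f' y) := h1
    _ ≤ K0 * (K' * dist x y) := mul_le_mul_of_nonneg_left h2 hK0.le
    _ = _ := by ring

include F in
/-- the classes of the tower `Y` on the based loops of `N` -/
theorem pull_pf (hK : 0 ≤ K0 * K') {x₀ : N} {s : ℝ} (hs : 0 < s)
    (hg : UMap (PS.P x₀ x₀ s) (XL N s) (MR.gM s))
    (hgA : UMap (PS.P (f' x₀) (f' x₀) (K' * s)) (XL A (K' * s)) (MR.gM (K' * s)))
    (hf : ∀ x y, dist ((f0.comp f') x) ((f0.comp f') y) ≤ K0 * K' * dist x y)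
    (hY : Y (K0 * K' * s) ⊆ Y (K0 * (K' * s))) (q : ℕ) (y : HU k (Y (K0 * (K' * s))) q) :
    hpull k hg q (hpull k (umap_qm hK hf s) q (hres k hY q y)) =
      hpull k (F.umap x₀ x₀ s) q (hpull k hgA q (hpull k (umap_qm hK0.le hf0 (K' * s)) q y)) := by
  have m1 : UMap (PS.P x₀ x₀ s) (Y (K0 * (K' * s))) (qm (f0.comp f') ∘ MR.gM s) :=
    ((IsMap.id_of_subset hY).comp (umap_qm hK hf s)).comp hg
  have m2 : UMap (PS.P x₀ x₀ s) (Y (K0 * (K' * s)))
      (qm f0 ∘ (MR.gM (K' * s) ∘ pf f' K')) :=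
    (umap_qm hK0.le hf0 (K' * s)).comp (hgA.comp (F.umap x₀ x₀ s))
  have e := pull_congr (χ := c0 k) (n := q) m1 m2 fun w hw => qm_gM_pf F hs.le hw
  have e' := LinearMap.congr_fun e y
  obtain ⟨c, hc, rfl⟩ := H.exists_mk y
  exact e'

/-- naturality of `pf^*` -/
theorem pf_res {x₀ : N} {s t : ℝ} (h : s ≤ t) (h' : K' * s ≤ K' * t) (q : ℕ)
    (z : HU k (PS.P (f' x₀) (f' x₀) (K' * t)) q) :
    hres k (PS.P_mono h) q (hpull k (F.umap x₀ x₀ t) q z) =
      hpull k (F.umap x₀ x₀ s) q (hres k (PS.P_mono h') q z) := by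
  obtain ⟨c, hc, rfl⟩ := H.exists_mk z
  rfl

include F in
/-- the pulled back classes are not zero at higher levels -/
theorem pf_ne {x₀ : N} {B0 : ℝ} (O0 : OmegaOut A 2 (f' x₀) B0 k) {j : ℕ} {s t : ℝ} (h : s ≤ t)
    (hne : hpull k (F.umap x₀ x₀ s) (j * 2) (O0.om j (K' * s)) ≠ 0) :
    hpull k (F.umap x₀ x₀ t) (j * 2) (O0.om j (K' * t)) ≠ 0 := by
  have h' : K' * s ≤ K' * t := mul_le_mul_of_nonneg_left h F.1.le
  intro h0
  refine hne ?_
  rw [← O0.res_om j _ _ h', ← pf_res F h h', h0, map_zero]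

include F in
/-- (G2) for `N`. -/
theorem g2N (hK : 0 ≤ K0 * K') {x₀ : N} {B0 B : ℝ} (hB0 : 0 ≤ B0) (hB : 0 ≤ B)
    (hBB : B0 ≤ K' * B)
    (hf : ∀ x y, dist ((f0.comp f') x) ((f0.comp f') y) ≤ K0 * K' * dist x y)
    (O0 : OmegaOut A 2 (f' x₀) B0 k)
    (hne : ∀ j, ∃ T > 0, hpull k (F.umap x₀ x₀ T) (j * 2) (O0.om j (K' * T)) ≠ 0)
    (G2 : G2P hK0.le hf0 O0) (O : OmegaOut N 2 x₀ B k) : G2P hK hf O := by
  intro j s hs hjs hg
  have hK' := F.1
  have hOs : O.om j s ≠ 0 := H799.om_ne_of_le hB O j s hjs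
  refine ⟨hOs, ?_⟩
  have hs' : 0 < K' * s := mul_pos hK' hs
  have hj0 : (0 : ℝ) ≤ j := Nat.cast_nonneg j
  obtain ⟨-, y0, hy0⟩ := G2 j (K' * s) hs' (by nlinarith) (umap_gM (f' x₀) hs')
  obtain ⟨T, hT, hT1⟩ := hne j
  have hY : Y (K0 * K' * s) ⊆ Y (K0 * (K' * s)) := Y_mono (by rw [mul_assoc])
  -- the coefficient, at a large level
  obtain ⟨t, ht⟩ : ∃ t : ℝ, t = max s T := ⟨_, rfl⟩
  have hst : s ≤ t := ht ▸ le_max_left _ _
  have hTt : T ≤ t := ht ▸ le_max_right _ _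
  have ht0 : 0 < t := hs.trans_le hst
  obtain ⟨c, hc⟩ := O.span j t ht0.le (PS.P_mono (by linarith))
    (hpull k (F.umap x₀ x₀ (t + B)) (j * 2) (O0.om j (K' * (t + B))))
  have hKt : K' * t ≤ K' * (t + B) := mul_le_mul_of_nonneg_left (by linarith) hK'.le
  rw [pf_res F (by linarith) hKt, O0.res_om j _ _ hKt] at hc
  have hc0 : c ≠ 0 := by
    rintro rfl
    rw [zero_smul] at hc
    exact pf_ne F O0 hTt hT1 hc
  have hKs : K' * s ≤ K' * t := mul_le_mul_of_nonneg_left hst hK'.le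
  have e1 : hpull k (F.umap x₀ x₀ s) (j * 2) (O0.om j (K' * s)) = c • O.om j s := by
    rw [← O0.res_om j _ _ hKs, ← pf_res F hst hKs, hc, map_smul, O.res_om j s t hst]
  refine ⟨c⁻¹ • hres k hY (j * 2) y0, ?_⟩
  rw [map_smul, map_smul, pull_pf F hK0 hf0 hK hs hg (umap_gM (f' x₀) hs') hf hY, hy0, e1,
    smul_smul, inv_mul_cancel₀ hc0, one_smul]

include F in
/-- (G3) for `N`, degree by degree. -/
theorem g3N (hK : 0 ≤ K0 * K') {x₀ : N} {B0 : ℝ} (hB0 : 0 ≤ B0)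
    (hf : ∀ x y, dist ((f0.comp f') x) ((f0.comp f') y) ≤ K0 * K' * dist x y)
    (O0 : OmegaOut A 2 (f' x₀) B0 k)
    (hne : ∀ j, ∃ T > 0, hpull k (F.umap x₀ x₀ T) (j * 2) (O0.om j (K' * T)) ≠ 0)
    (G3 : G3P hK0.le hf0 (f' x₀) k) : G3Q hK hf x₀ k := by
  intro q hq s
  obtain ⟨j, rfl⟩ : ∃ j, q = j * 2 := ⟨q / 2, by omega⟩
  have hK' := F.1
  obtain ⟨s1, hs1, T1, hT1, hKT1, H1⟩ := G3 s
  obtain ⟨Tj, hTj, hTj1⟩ := hne j
  obtain ⟨u, hu⟩ : ∃ u : ℝ, u = Tj + T1 / K' := ⟨_, rfl⟩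
  obtain ⟨T, hT⟩ : ∃ T : ℝ, T = u + B0 / K' := ⟨_, rfl⟩
  have hd1 : 0 < T1 / K' := div_pos hT1 hK'
  have hd2 : 0 ≤ B0 / K' := div_nonneg hB0 hK'.le
  have hu0 : 0 < u := by linarith
  have hT0 : 0 < T := by linarith
  have huT : u ≤ T := by linarith
  have hTu : Tj ≤ u := by linarith
  have e1 : K' * u = K' * Tj + T1 := by rw [hu]; field_simp
  have e2 : K' * T = K' * u + B0 := by rw [hT]; field_simp
  have hT1u : T1 ≤ K' * u := by nlinarith [mul_pos hK' hTj]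
  have hKT : K' * u ≤ K' * T := by linarith
  have hKT0 : 0 < K' * T := mul_pos hK' hT0
  refine ⟨max s1 (K0 * K' * T), hs1.trans (le_max_left _ _), T, hT0, le_max_right _ _,
    fun hg z hz => ?_⟩
  have hl : K0 * (K' * T) ≤ max s1 (K0 * K' * T) := by rw [← mul_assoc]; exact le_max_right _ _
  have hY : Y (K0 * K' * T) ⊆ Y (K0 * (K' * T)) := Y_mono (by rw [mul_assoc])
  set z0 := hres k (Y_mono hl) (j * 2) z with hz0
  set zA := hpull k (umap_gM (f' x₀) hKT0) (j * 2)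
    (hpull k (umap_qm hK0.le hf0 (K' * T)) (j * 2) z0) with hzA
  -- the pullback of `zA` is zero
  have h1 : hpull k (F.umap x₀ x₀ T) (j * 2) zA = 0 := by
    rw [hzA, ← pull_pf F hK0 hf0 hK hT0 hg (umap_gM (f' x₀) hKT0) hf hY, hz0, res_res]
    exact hz
  -- `zA` is zero at the level `K' * u`
  have h2 : hres k (PS.P_mono hKT) (j * 2) zA = 0 := by
    obtain ⟨c, hc⟩ := O0.span j (K' * u) (by positivity) (PS.P_mono (by linarith))
      (hres k (PS.P_mono (by rw [e2])) (j * 2) zA)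
    rw [res_res] at hc
    have h3 : c • hpull k (F.umap x₀ x₀ u) (j * 2) (O0.om j (K' * u)) = 0 := by
      rw [← map_smul, ← hc, ← pf_res F huT hKT, h1, map_zero]
    rcases smul_eq_zero.1 h3 with h4 | h4
    · rw [hc, h4, zero_smul]
    · exact absurd h4 (pf_ne F O0 hTu hTj1)
  -- down to the level `T1`
  have h5 : hpull k (umap_gM (f' x₀) hT1) (j * 2) (hpull k (umap_qm hK0.le hf0 T1) (j * 2)
      (hres k (Y_mono hKT1) (j * 2) (hres k (Y_mono (le_max_left s1 (K0 * K' * T))) (j * 2) z))) =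
      0 := by
    have hTT : T1 ≤ K' * T := hT1u.trans hKT
    have e3 : hpull k (umap_qm hK0.le hf0 T1) (j * 2)
        (hres k (Y_mono hKT1) (j * 2) (hres k (Y_mono (le_max_left s1 (K0 * K' * T))) (j * 2) z)) =
        hres k (XL_mono hTT) (j * 2) (hpull k (umap_qm hK0.le hf0 (K' * T)) (j * 2) z0) := by
      rw [hz0]
      obtain ⟨c, hc, rfl⟩ := H.exists_mk z
      rfl
    rw [e3, gM_res (f' x₀) hT1 hTT]
    change hres k (PS.P_mono hTT) (j * 2) zA = 0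
    have e4 : hres k (PS.P_mono hTT) (j * 2) zA =
        hres k (PS.P_mono hT1u) (j * 2) (hres k (PS.P_mono hKT) (j * 2) zA) := by rw [res_res]
    rw [e4, h2, map_zero]
  have h6 := H1 (umap_gM (f' x₀) hT1) (j * 2) _ h5
  rwa [res_res] at h6

end Vale.Agent.P216.H971T
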