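import Vale.Agent.P216.H971T.Gom
import Vale.Agent.P216.H126T.Three3
import Vale.Agent.P216.B64.SCS

/-!
# P216-T: (G2), (G3) for a closed simply connected three-manifold `N`; the final theorem
-/

set_option linter.all false

open Set BoundedContinuousFunction Quaternion

namespace Vale.Agent.P216.H971T

open AS B64 GM L250 Q633 H828C H269
open Vale.Agent.P216.Sl Vale.Agent.P216.PS Vale.Agent.P216.N929 Vale.Agent.P216.H977C
open Vale.Agent.P216.H456T
open Module (finrank)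

/-- a continuous map of compact spaces -/
theorem isMap_of_cont {X Y : Type} [MetricSpace X] [CompactSpace X] [MetricSpace Y] {g : X → Y}
    (hg : Continuous g) : IsMap (a0 X) (a0 Y) univ univ g := by
  have h := CompactSpace.uniformContinuous_of_continuous hg
  rw [Metric.uniformContinuous_iff] at h
  refine ⟨fun _ _ => mem_univ _, fun e => e.elim, fun ε hε => ?_⟩
  obtain ⟨δ, hδ, h1⟩ := h ε hε
  exact ⟨δ, hδ, fun a _ b _ hab => h1 hab⟩

/-- exactness and maps -/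
theorem exL_map {X Y : Type} [MetricSpace X] [MetricSpace Y] {k : Type} [Field k] {n : ℕ}
    {F : X → Y} (hF : IsMap (a0 X) (a0 Y) univ univ F) {f : List Y → k} (hf : ExL univ n f) :
    ExL univ n fun l => f (l.map F) := by
  obtain ⟨g, hg, ε, hε, h⟩ := hf
  obtain ⟨δ, hδ, h'⟩ := hF.uc ε hε
  refine ⟨fun l => g (l.map F), fun h0 l => hg h0 _, δ, hδ, fun l hl hs => ?_⟩
  rw [Sl.dl_map]
  refine h _ (by rw [List.length_map, hl]) ⟨fun y hy => mem_univ _, fun y hy y' hy' => ?_⟩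
  obtain ⟨x, hx, rfl⟩ := List.mem_map.1 hy
  obtain ⟨x', hx', rfl⟩ := List.mem_map.1 hy'
  exact h' x (hs.1 x hx) x' (hs.1 x' hx') (hs.2 x hx x' hx')

section

variable {A N : Type} [MetricSpace A] [CompactSpace A] [MetricSpace N] [CompactSpace N]
  {k : Type} [Field k]

/-- the Thom classes of `A` on `N` -/
theorem tauA {f : C(N, S3)} (hcol : ∀ w : List S3 → k, CocL (univ : Set S3) 3 w →
      ¬ ExL (univ : Set S3) 3 w → ¬ ExL (univ : Set N) 3 (fun l => w (l.map f)))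
    (e : A ≃ₜ S3) (hT : ThomK (fun _ _ => True) A 3) {f' : N → A} (hff : ∀ x, e (f' x) = f x)
    {ρ₁ : ℝ} (hρ₁ : 0 < ρ₁) : ∃ τ : Tau k A 3 ρ₁,
      ∀ y : A, ¬ ExL (univ : Set N) 3 fun l => τ.f (l.map fun x => (f' x, y)) := by
  obtain ⟨τ, hτ⟩ := hT k trivial ρ₁ hρ₁
  refine ⟨τ, fun y hex => ?_⟩
  have hc : CocL (univ : Set (A × A)) 3 τ.f := ⟨τ.ε, τ.hε, τ.coc⟩
  have m1 : IsMap (a0 S3) (a0 (A × A)) univ univ fun z : S3 => (e.symm z, y) :=
    isMap_of_cont (e.symm.continuous.prodMk continuous_const)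
  have h1 : CocL (univ : Set S3) 3 fun l => τ.f (l.map fun z => (e.symm z, y)) := hc.map m1
  refine hcol _ h1 (fun h2 => hτ y ?_) ?_
  · have h3 := exL_map (isMap_of_cont e.continuous) h2
    refine H934D.exL_congr h3 fun l _ => ?_
    rw [List.map_map]
    congr 1
    refine List.map_congr_left fun x _ => ?_
    show (x, y) = (e.symm (e x), y)
    rw [e.symm_apply_apply]
  · refine H934D.exL_congr hex fun l _ => ?_
    rw [List.map_map]
    congr 1
    refine List.map_congr_left fun x _ => ?_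
    show (e.symm (f x), y) = (f' x, y)
    rw [← hff, e.symm_apply_apply]

/-- the map is not constant -/
theorem not_const {ρ₁ : ℝ} (τ : Tau k A 3 ρ₁) {f' : N → A} (x₀ : N)
    (hτ : ∀ y : A, ¬ ExL (univ : Set N) 3 fun l => τ.f (l.map fun x => (f' x, y))) :
    ∃ x, f' x ≠ f' x₀ := by
  by_contra h
  push Not at h
  refine hτ (f' x₀) ⟨fun _ => 0, fun _ _ => rfl, 1, one_pos, fun l hl _ => ?_⟩
  rw [PS.dl_zero_fun]
  refine τ.nrm _ fun hc => ?_
  obtain _ | ⟨a, _ | ⟨b, l⟩⟩ := l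
  · simp at hl
  · simp at hl
  · simp only [List.map_cons, h] at hc
    exact (List.isChain_cons_cons.1 hc).1 rfl

/-- three points with different images -/
theorem exists_three [PreconnectedSpace N] {f' : C(N, A)} (x₀ : N) (h : ∃ x, f' x ≠ f' x₀) :
    ∃ a b : N, f' x₀ ≠ f' a ∧ f' x₀ ≠ f' b ∧ f' a ≠ f' b := by
  obtain ⟨x, hx⟩ := h
  have h5 : (range f').Infinite :=
    (isPreconnected_range f'.continuous).infinite_of_nontrivial
      ⟨f' x, mem_range_self _, f' x₀, mem_range_self _, hx⟩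
  obtain ⟨_, ⟨a, rfl⟩, ha⟩ := h5.exists_notMem_finite (Set.finite_singleton (f' x₀))
  obtain ⟨_, ⟨b, rfl⟩, hb⟩ := h5.exists_notMem_finite ((Set.finite_singleton (f' x₀)).insert (f' a))
  simp only [mem_singleton_iff, mem_insert_iff, not_or] at ha hb
  exact ⟨a, b, fun h => ha h.symm, fun h => hb.2 h.symm, fun h => hb.1 h.symm⟩

end

/-- the round three-sphere is simply connected -/
theorem sc_RS3 : SimplyConnectedSpace RS3 := by
  haveI : SimplyConnectedSpace (Metric.sphere (0 : ℍ[ℝ]) 1) :=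
    simplyConnected_sphere (E := ℍ[ℝ]) (by rw [Quaternion.finrank_eq_four]; norm_num)
  exact simplyConnected_of_homeo (toSph (E := ℍ[ℝ]))

theorem thom_RS3 : ThomK (fun _ _ => True) RS3 3 := by
  haveI := sc_RS3
  haveI : Fact (finrank ℝ ℍ[ℝ] = 3 + 1) := ⟨Quaternion.finrank_eq_four⟩
  letI : ChartedSpace (EuclideanSpace ℝ (Fin 3)) RS3 :=
    Homeomorph.chartedSpace (H := EuclideanSpace ℝ (Fin 3)) (toSph (E := ℍ[ℝ])).symm
  have h := H126T.thomK_all (E := EuclideanSpace ℝ (Fin 3)) (N := RS3)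
    (by rw [finrank_euclideanSpace_fin]; norm_num)
  rwa [finrank_euclideanSpace_fin] at h

section

variable {M : Type} [MetricSpace M] [CompactSpace M] {k : Type} [Field k]

/-- (G2), (G3) for a homeomorphism which does not increase the distances -/
theorem gom_self {ρ : ℝ} (hρ : 0 < ρ) (hU : LS.UniqSeg M ρ) (e : M ≃ₜ S3) {x₀ : M} (hx : e x₀ = 1)
    {f : C(M, S3)} (hfe : ∀ x, f x = e x) {K : ℝ} (hK : 0 ≤ K)
    (hf : ∀ x y, dist (f x) (f y) ≤ K * dist x y) {B : ℝ}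
    (hB : 0 ≤ B) (O : OmegaOut M 2 x₀ B k) : G2P hK hf O ∧ G3P hK hf x₀ k := by
  obtain ⟨ε₀, hε₀, g0⟩ := H779C.gom0 hρ hU e hx
  obtain ⟨ε₂, hε₂, g2⟩ := H311.gom2 hρ hU e hx
  have c0 : ∀ x, dist (f x) (e x) ≤ ε₀ := fun x => by rw [hfe, dist_self]; exact hε₀.le
  have c2 : ∀ x, dist (f x) (e x) ≤ ε₂ := fun x => by rw [hfe, dist_self]; exact hε₂.le
  refine ⟨fun j s hs hjs hg => g2 f K hK hf c2 k hB O j s hs hjs hg, fun s => ?_⟩
  obtain ⟨T, s', hT, h1⟩ := g0 f K hK hf c0 s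
  obtain ⟨hs, hKT, h2⟩ := h1 s' le_rfl
  refine ⟨s', hs, T, hT, hKT, fun hg q z hz => ?_⟩
  obtain ⟨α, hα⟩ := h2 k q
  rw [← hα z]
  exact (congrArg α hz).trans (map_zero α)

/-- (G2) with a smaller Lipschitz constant and another constant for the based loops -/
theorem g2_down {g f : C(M, S3)} (hgf : g = f) {K1 K : ℝ} (hK1 : 0 ≤ K1) (hK : 0 ≤ K)
    (hKK : K ≤ K1) (hg : ∀ x y, dist (g x) (g y) ≤ K1 * dist x y)
    (hf : ∀ x y, dist (f x) (f y) ≤ K * dist x y) {x₀ : M} {B1 B : ℝ} (hB : 0 ≤ B)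
    (O : OmegaOut M 2 x₀ B k) (O1 : OmegaOut M 2 x₀ B1 k) (hO : ∀ j t, O1.om j t = O.om j t)
    (H2 : G2P hK1 hg O1) : G2P hK hf O := by
  subst hgf
  intro j s hs hjs hgM
  refine ⟨H799.om_ne_of_le hB O j s hjs, ?_⟩
  obtain ⟨t, ht⟩ : ∃ t : ℝ, t = max s (j * B1) := ⟨_, rfl⟩
  have hst : s ≤ t := ht ▸ le_max_left _ _
  have ht0 : 0 < t := hs.trans_le hst
  obtain ⟨-, y, hy⟩ := H2 j t ht0 (ht ▸ le_max_right _ _) (umap_gM x₀ ht0)
  have hY : K * s ≤ K1 * t := mul_le_mul hKK hst hs.le hK1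
  refine ⟨hres k (Y_mono hY) (j * 2) y, ?_⟩
  have e : hpull k (umap_qm hK hf s) (j * 2) (hres k (Y_mono hY) (j * 2) y) =
      hres k (XL_mono hst) (j * 2) (hpull k (umap_qm hK1 hg t) (j * 2) y) := by
    obtain ⟨c, hc, rfl⟩ := H.exists_mk y
    rfl
  rw [e]
  refine (gM_res x₀ hs hst (j * 2) _).trans ?_
  rw [hy, hO, O.res_om j s t hst]

/-- (G3) with a smaller Lipschitz constant -/
theorem g3_down {g f : C(M, S3)} (hgf : g = f) {K1 K : ℝ} (hK1 : 0 ≤ K1) (hK : 0 ≤ K)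
    (hKK : K ≤ K1) (hg : ∀ x y, dist (g x) (g y) ≤ K1 * dist x y)
    (hf : ∀ x y, dist (f x) (f y) ≤ K * dist x y) {x₀ : M}
    (H3 : G3Q hK1 hg x₀ k) : G3Q hK hf x₀ k := by
  subst hgf
  intro q hq s
  obtain ⟨s', h, T, hT, hKT, H1⟩ := H3 q hq s
  refine ⟨s', h, T, hT, (mul_le_mul_of_nonneg_right hKK hT.le).trans hKT,
    fun hgM z hz => H1 hgM z ?_⟩
  rw [← hz]
  obtain ⟨c, hc, rfl⟩ := H.exists_mk z
  rfl

end

section

variable {E : Type} [NormedAddCommGroup E] [NormedSpace ℝ E] [FiniteDimensional ℝ E]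
  {N : Type} [MetricSpace N] [CompactSpace N] [ChartedSpace E N] [SimplyConnectedSpace N]

/-- **(G2), (G3)** for a Lipschitz map of degree one. -/
theorem g23 {k : Type} [Field k] (h3 : finrank ℝ E = 3) {ρ : ℝ} (hρ : 0 < ρ)
    (hU : LS.UniqSeg N ρ) {x₀ : N} {B : ℝ} (hB : 0 < B) (O : OmegaOut N 2 x₀ B k) (f : C(N, S3))
    {K : ℝ} (hK : 0 < K) (hf : ∀ x y, dist (f x) (f y) ≤ K * dist x y) (hfx : f x₀ = 1)
    (hcol : ∀ w : List S3 → k, CocL (univ : Set S3) 3 w → ¬ ExL (univ : Set S3) 3 w →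
      ¬ ExL (univ : Set N) 3 (fun l => w (l.map f))) :
    G2P hK.le hf O ∧ G3Q hK.le hf x₀ k := by
  haveI := sc_RS3
  -- the maps
  let e : RS3 ≃ₜ S3 := toSph (E := ℍ[ℝ])
  have he1 : ∀ x y, dist (e x) (e y) ≤ dist x y := dist_toSph_le
  have he2 : ∀ x y, dist x y ≤ Real.pi / 2 * dist (e x) (e y) := le_dist_toSph
  let f0 : C(RS3, S3) := ⟨e, e.continuous⟩
  have hf0 : ∀ x y, dist (f0 x) (f0 y) ≤ 1 * dist x y := fun x y => by
    rw [one_mul]
    exact he1 x y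
  let f' : C(N, RS3) := ⟨fun x => e.symm (f x), e.symm.continuous.comp f.continuous⟩
  have hff : ∀ x, e (f' x) = f x := fun x => e.apply_symm_apply _
  have hcomp : f0.comp f' = f := ContinuousMap.ext hff
  have hpi : 1 ≤ Real.pi / 2 := by linarith [Real.pi_gt_three]
  have F : LipK f' (Real.pi / 2 * K) := by
    refine ⟨by positivity, fun x y => (he2 _ _).trans ?_⟩
    rw [hff, hff, mul_assoc]
    exact mul_le_mul_of_nonneg_left (hf x y) (by linarith)
  have hx0 : e (f' x₀) = 1 := by rw [hff, hfx]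
  -- the classes of the round sphere
  obtain ⟨τ, hτ⟩ := tauA hcol e thom_RS3 hff one_pos
  obtain ⟨a', b', h1, h2, h4⟩ := exists_three x₀ (not_const τ x₀ hτ)
  obtain ⟨s, hs, hE⟩ := H994.etaNeK_of_base (Kf := fun _ _ => True) (h := 1) hρ hU (d := 3)
    (by norm_num) le_rfl fun k _ _ => H126T.baseK3 (E := E) hρ hU h3 k
  obtain ⟨B0, hB0, O0, hne⟩ := exists_om_pull (k := k) (n := 3) Real.pi_pos
    (uniqSeg (E := ℍ[ℝ])) hρ hU (by norm_num) F h1 h2 h4
    (fun ρ₁ hρ₁ => tauA hcol e thom_RS3 hff hρ₁) ⟨s, hs, hE k trivial⟩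
  have hK' : 0 < Real.pi / 2 * K := F.1
  obtain ⟨G2, G3⟩ := gom_self (k := k) Real.pi_pos (uniqSeg (E := ℍ[ℝ])) e hx0 (f := f0)
    (fun _ => rfl) one_pos.le hf0 hB0.le O0
  -- down to `N`
  have hBB : B0 ≤ Real.pi / 2 * K * max B (B0 / (Real.pi / 2 * K)) := by
    have h5 : B0 / (Real.pi / 2 * K) ≤ max B (B0 / (Real.pi / 2 * K)) := le_max_right _ _
    rw [div_le_iff₀' hK'] at h5
    exact h5
  have hB1 : 0 ≤ max B (B0 / (Real.pi / 2 * K)) := hB.le.trans (le_max_left _ _)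
  have hK1 : 0 ≤ 1 * (Real.pi / 2 * K) := by positivity
  have hKK : K ≤ 1 * (Real.pi / 2 * K) := by nlinarith
  have hf1 := lip_comp F one_pos hf0
  have H2 := g2N F one_pos hf0 hK1 hB0.le hB1 hBB hf1 O0 hne G2 (omUp hB.le (le_max_left _ _) O)
  have H3 := g3N F one_pos hf0 hK1 hB0.le hf1 O0 hne G3
  exact ⟨g2_down hcomp hK1 hK.le hKK hf1 hf hB.le O
      (omUp hB.le (le_max_left _ _) O) (fun _ _ => rfl) H2,
    g3_down hcomp hK1 hK.le hKK hf1 hf H3⟩

end

open Bundle Manifold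
open scoped ContDiff

/-- **Row G23.** -/
theorem g23Goal : H126T.Three.G23Goal := by
  intro E _ _ _ N _ _ _ _ h3 ρ hρ hU x₀ B hB O f K hK hf hfx hcol
  exact g23 (E := E) h3 hρ hU hB O f hK hf hfx hcol

/-- **Closed simply connected Riemannian three-manifolds** have infinitely many closed geodesics
with different images (no Poincare conjecture). -/
theorem infinite_three
    {E : Type} [NormedAddCommGroup E] [NormedSpace ℝ E] [FiniteDimensional ℝ E]
    {N : Type} [MetricSpace N] [CompactSpace N] [ChartedSpace E N] [IsManifold 𝓘(ℝ, E) ∞ N]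
    [RiemannianBundle (fun x : N => TangentSpace 𝓘(ℝ, E) x)]
    [IsContMDiffRiemannianBundle 𝓘(ℝ, E) ∞ E (fun x : N => TangentSpace 𝓘(ℝ, E) x)]
    [IsRiemannianManifold 𝓘(ℝ, E) N] [SimplyConnectedSpace N] (h3 : finrank ℝ E = 3) :
    (primeClosedGeodesicImages N).Infinite :=
  H126T.Three.infinite_three_G g23Goal h3

end Vale.Agent.P216.H971T
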