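import Vale.Agent.P216.H971T.GomN
import Vale.Agent.P216.H215.PiMain2

/-!
# P216-T: the block `ThreeGoal` and the theorem for finite fundamental groups
-/

namespace Vale.Agent.P216.H971T

/-- **Row T.** -/
theorem threeGoal : H215.ThreeGoal := @infinite_three

end Vale.Agent.P216.H971T
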