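import Vale.Agent.P216.D337.Mid1

/-!
# P216-T, row Nx (1): the image of a path under a Lipschitz map

`pf f K w u = f (w (u / K))`, for a `K`-Lipschitz map `f : N → A`.
-/

set_option linter.all false

open Finsupp Set BoundedContinuousFunction

namespace Vale.Agent.P216.H971T

open Vale.Agent.P216.Sl Vale.Agent.P216.PS Vale.Agent.P216.N929 Vale.Agent.P216.H977C

section pf

variable {A N : Type} [MetricSpace A] [CompactSpace A] [MetricSpace N]

/-- `f` is `K`-Lipschitz, `K > 0`. -/
def LipK (f : N → A) (K : ℝ) : Prop := 0 < K ∧ ∀ x y, dist (f x) (f y) ≤ K * dist x y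

/-- The image of a path, slowed down. -/
noncomputable def pf (f : N → A) (K : ℝ) (w : ℝ →ᵇ N) : ℝ →ᵇ A := mo fun u => f (w (u / K))

variable {f : N → A} {K : ℝ} {w w' v : ℝ →ᵇ N} {a b c : N} {t t' : ℝ}

theorem LipK.lip (F : LipK f K) (hw : Lip w) : Lip fun u => f (w (u / K)) := by
  intro u v
  refine (F.2 _ _).trans ?_
  have h1 := hw (u / K) (v / K)
  have h2 : |u / K - v / K| = |u - v| / K := by
    rw [← sub_div, abs_div, abs_of_pos F.1]
  have h3 := F.1
  rw [h2] at h1
  calc K * dist (w (u / K)) (w (v / K)) ≤ K * (|u - v| / K) :=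
        mul_le_mul_of_nonneg_left h1 h3.le
    _ = |u - v| := by field_simp

theorem LipK.pf_apply (F : LipK f K) (hw : Lip w) (u : ℝ) : pf f K w u = f (w (u / K)) :=
  (F.lip hw).mo_apply u

theorem LipK.pf_lip (F : LipK f K) (hw : Lip w) : Lip (pf f K w) := fun u v => by
  rw [F.pf_apply hw, F.pf_apply hw]
  exact F.lip hw u v

theorem LipK.pf_mem (F : LipK f K) (hw : w ∈ P a b t) : pf f K w ∈ P (f a) (f b) (K * t) := by
  have hK := F.1
  refine mo_mem (F.lip hw.1) (fun u hu => ?_) fun u hu => ?_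
  · rw [eq_left hw (div_nonpos_of_nonpos_of_nonneg hu hK.le)]
  · rw [eq_right hw (by rw [le_div_iff₀ hK]; linarith)]

theorem LipK.dist_pf_le (F : LipK f K) (hw : Lip w) (hw' : Lip w') :
    dist (pf f K w) (pf f K w') ≤ K * dist w w' := by
  have hK := F.1
  rw [BoundedContinuousFunction.dist_le (by positivity)]
  intro u
  rw [F.pf_apply hw, F.pf_apply hw']
  exact (F.2 _ _).trans (mul_le_mul_of_nonneg_left
    (BoundedContinuousFunction.dist_coe_le_dist _) hK.le)

theorem LipK.pf_cat [CompactSpace N] (F : LipK f K) (hw : Lip w) (hv : Lip v) (h : w t = v 0) :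
    pf f K (cat t w v) = cat (K * t) (pf f K w) (pf f K v) := by
  have hK := F.1
  have hc : Lip (cat t w v) := fun x y => by
    rw [cat_apply hw hv h, cat_apply hw hv h]
    exact lip_catf hw hv h x y
  have h0 : pf f K w (K * t) = pf f K v 0 := by
    rw [F.pf_apply hw, F.pf_apply hv, mul_div_cancel_left₀ _ hK.ne', zero_div, h]
  ext u
  rw [F.pf_apply hc, cat_apply hw hv h, cat_apply (F.pf_lip hw) (F.pf_lip hv) h0]
  rcases le_total u (K * t) with hu | hu
  · rw [catf_left hu, catf_left (by rw [div_le_iff₀ hK]; linarith), F.pf_apply hw]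
  · rw [catf_right h0 hu, catf_right h (by rw [le_div_iff₀ hK]; linarith), F.pf_apply hv]
    congr 2
    field_simp

theorem LipK.pf_cst (F : LipK f K) (a : N) : pf f K (cst a) = cst (f a) := by
  ext u
  rw [F.pf_apply (lip_cst a)]
  rfl

/-- The image of a fine cycle. -/
theorem LipK.cy {k : Type} [Field k] (F : LipK f K) {ε : ℝ} {m : ℕ} {z : Ch k (ℝ →ᵇ N)}
    (hz : Cy (P a b t) ε m z) :
    Cy (P (f a) (f b) (K * t)) (K * ε) m (mp (pf f K) z) := by
  have hK := F.1
  refine ⟨map_mem _ (fun l hl => ?_) hz.1, ?_⟩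
  · rw [mp_single]
    refine single_mem ⟨by rw [List.length_map, hl.1], fun w hw => ?_, fun w hw w' hw' => ?_⟩ _
    · obtain ⟨x, hx, rfl⟩ := List.mem_map.1 hw
      exact F.pf_mem (hl.2.1 x hx)
    · obtain ⟨x, hx, rfl⟩ := List.mem_map.1 hw
      obtain ⟨y, hy, rfl⟩ := List.mem_map.1 hw'
      exact (F.dist_pf_le (hl.2.1 x hx).1 (hl.2.1 y hy).1).trans_lt
        (mul_lt_mul_of_pos_left (hl.2.2 x hx y hy) hK)
  · rw [bd_mp]
    refine map_mem _ (fun l hl => ?_) hz.2
    rw [mp_single]
    exact single_mem (by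
      have : l = [] := List.length_eq_zero_iff.1 hl
      rw [this]
      rfl) _

end pf

end Vale.Agent.P216.H971T
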