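import Vale.Agent.P216.H971T.Nx1

/-!
# P216-T, row Nx (2): the crossing lemma for given cycles, and under a Lipschitz map
-/

set_option linter.all false

open Finsupp Set BoundedContinuousFunction

namespace Vale.Agent.P216.H971T

open Vale.Agent.P216.Sl Vale.Agent.P216.PS Vale.Agent.P216.N929 Vale.Agent.P216.H977C
open Vale.Agent.P216.Crs

/-- **The crossing lemma** for given cycles `z`, `a`. -/
theorem cross_val {M : Type} [MetricSpace M] [CompactSpace M] [SimplyConnectedSpace M]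
    {ρ₀ ρ₁ r : ℝ} {x₀ p q : M} {c ℓ s : ℝ} {v : ℝ →ᵇ M} {k : Type} [Field k] {n m : ℕ}
    (τ : Tau k M n ρ₁) {g : List (ℝ →ᵇ M) → k} {ε₀ : ℝ} (hseg : LS.UniqSeg M ρ₀) (hr : 0 < r)
    (hrρ : r < ρ₀) (hρr : ρ₁ < r) (hn : 2 ≤ n) (hc : 0 ≤ c) (hℓ : 0 ≤ ℓ) (hs : 0 ≤ s)
    (hv : v ∈ P p q ℓ) (hg : Nrm g) (hε₀ : 0 < ε₀) (hcoc : ∀ T, Coc (P x₀ p T) ε₀ m g)
    {ε' : ℝ} (hε' : 0 < ε') (h0 : ε' ≤ ε₀) {z a : Ch k (ℝ →ᵇ M)} (hz1 : Cy (P x₀ p c) ε' m z)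
    (hz2 : ev g z ≠ 0) (ha1 : Cy (P q q s) ε' (n - 1) a)
    (ha2 : ∀ ι, Edge 0 s ε' ι → ev (fun l => τ.f (l.map (evp p))) (sh a ι) = 1) :
    ∃ ι, Edge 0 (c + ℓ + s) ε' ι ∧ ev (intg n τ.f g r p)
      (sh (mp (fun x : (ℝ →ᵇ M) × (ℝ →ᵇ M) => cat c x.1 (cat ℓ v x.2)) (sh z a)) ι) ≠ 0 := by
  obtain ⟨ι₁, hι₁⟩ := Tau.exists_isMesh k (by linarith : 0 ≤ c + ℓ) hε'
  obtain ⟨ι₂, hι₂⟩ := Tau.exists_isMesh k hs hε'
  have h₁ : Edge 0 (c + ℓ) ε' ι₁ := ⟨hι₁.mem, hι₁.bd⟩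
  have h₂ : Edge 0 s ε' ι₂ := ⟨hι₂.mem, hι₂.bd⟩
  have hE := Crs.edge_add (by linarith : 0 ≤ c + ℓ) hs h₁ h₂
  refine ⟨ι₁ + mp (fun t => t + (c + ℓ)) ι₂, hE, ?_⟩
  have p1 := part1 τ.nrm hg hn hr hc hℓ hs hv (Sp_mono (fun l hl => ⟨hl.1, hl.2.1⟩) hz1.1)
    (j := n) (Sp_mono (fun l hl => ⟨by have := hl.1; omega, hl.2.1⟩) ha1.1)
    (Sp_mono (fun l hl x hx => (hl.2.1 x hx).2) h₁.1) (n := n) p
  have hz1' : Cy (P x₀ p c) ε₀ m z := ⟨Sp_mono (fun l hl => ⟨hl.1, hl.2.mono subset_rfl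
    h0⟩) hz1.1, hz1.2⟩
  have p2 := part2 τ hseg hr hrρ hρr hc hℓ hs hv hε₀ hcoc hz1'
    (Sp_mono (fun l hl => ⟨by have := hl.1; omega, hl.2.1⟩) ha1.1)
    (Sp_mono (fun l hl => ⟨hl.1, hl.2.1⟩) h₂.1)
  rw [map_add, map_add, p1, p2, zero_add, ha2 ι₂ h₂, one_mul]
  exact mul_ne_zero (pow_ne_zero _ (neg_ne_zero.2 one_ne_zero)) hz2

section

variable {A N : Type} [MetricSpace A] [CompactSpace A] [MetricSpace N] [CompactSpace N]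
  {k : Type} [Field k] {n : ℕ} {f : N → A} {K : ℝ}

/-- **(ii)** under a Lipschitz map. -/
theorem up_f [SimplyConnectedSpace A] (G : Geo A n) (τ : Tau k A n G.ρ₁) (F : LipK f K) {x' : N}
    {y' : Bool → N} (hx' : f x' = G.x₀) (hy' : ∀ b, f (y' b) = G.y b) (b : Bool) (j : ℕ)
    {c ℓ s : ℝ} (hc : 0 ≤ c) (hℓ : 0 ≤ ℓ) (hs : 0 ≤ s) {v : ℝ →ᵇ N}
    (hv : v ∈ P (y' (!b)) (y' b) ℓ)
    (ha : ∃ ε₁ > 0, ∀ ε, 0 < ε → ε ≤ ε₁ → ∃ a : Ch k (ℝ →ᵇ N),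
      Cy (P (y' b) (y' b) s) ε (n - 1) a ∧ ∀ ι, Edge 0 (K * s) (K * ε) ι →
        ev (fun l => τ.f (l.map (evp (G.y (!b))))) (sh (mp (pf f K) a) ι) = 1)
    (h : ¬ ExL (P x' (y' (!b)) c) (j * (n - 1)) fun l => om G τ (!b) j (l.map (pf f K))) :
    ¬ ExL (P x' (y' b) (c + ℓ + s)) ((j + 1) * (n - 1))
      fun l => om G τ b (j + 1) (l.map (pf f K)) := by
  have hn := G.hn
  have hd := deg_succ (n := n) j (by omega)
  have hK := F.1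
  rw [not_ex_iff] at h ⊢
  intro ε hε
  obtain ⟨ε₁, hε₁, ha⟩ := ha
  have hw0 := omε_pos G τ (!b) j
  have hw1 := omε_pos G τ b (j + 1)
  set W : ℝ := min (omε G τ (!b) j) (omε G τ b (j + 1)) with hW
  have hW0 : 0 < W := lt_min hw0 hw1
  set ε' : ℝ := min ε (min ε₁ (W / K)) with hεdef
  have hε' : 0 < ε' := lt_min hε (lt_min hε₁ (div_pos hW0 hK))
  have hεW : K * ε' ≤ W := by
    have h1 : ε' ≤ W / K := (min_le_right _ _).trans (min_le_right _ _)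
    rw [le_div_iff₀ hK] at h1
    linarith
  obtain ⟨a, ha1, ha2⟩ := ha ε' hε' ((min_le_right _ _).trans (min_le_left _ _))
  obtain ⟨z, hz1, hz2⟩ := h ε' hε'
  have hZ := cy_phi hn hc hℓ hs hv hz1 ha1
  have e : j * (n - 1) + n - 1 = (j + 1) * (n - 1) := by omega
  rw [e] at hZ
  refine ⟨_, hZ.mono le_rfl (min_le_left _ _), ?_⟩
  -- the images
  have hzA : Cy (P G.x₀ (G.y (!b)) (K * c)) (K * ε') (j * (n - 1)) (mp (pf f K) z) := by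
    have := F.cy hz1
    rwa [hx', hy'] at this
  have haA : Cy (P (G.y b) (G.y b) (K * s)) (K * ε') (n - 1) (mp (pf f K) a) := by
    have := F.cy ha1
    rwa [hy'] at this
  have hvA : pf f K v ∈ P (G.y (!b)) (G.y b) (K * ℓ) := by
    have := F.pf_mem hv
    rwa [hy', hy'] at this
  have hKε : 0 < K * ε' := mul_pos hK hε'
  have hKc : 0 ≤ K * c := mul_nonneg hK.le hc
  have hKℓ : 0 ≤ K * ℓ := mul_nonneg hK.le hℓ
  have hKs : 0 ≤ K * s := mul_nonneg hK.le hs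
  obtain ⟨ι, hι, hne⟩ := cross_val τ (g := om G τ (!b) j) (m := j * (n - 1))
    (ε₀ := omε G τ (!b) j) G.seg G.hr G.hrρ G.h1r hn hKc hKℓ hKs hvA
    (om_nrm G τ _ _) hw0 (om_coc G τ _ _) hKε (hεW.trans (min_le_left _ _)) hzA
    (by rw [ev_mp]; exact hz2) haA ha2
  have hZA := cy_phi hn hKc hKℓ hKs hvA hzA haA
  rw [e] at hZA
  have hT : 0 ≤ K * c + K * ℓ + K * s := by positivity
  have key := om_eval G τ b j hT le_rfl hKε (hεW.trans (min_le_right _ _)) hZA hι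
  have hne' : ev (om G τ b (j + 1)) (mp (fun x : (ℝ →ᵇ A) × (ℝ →ᵇ A) =>
      cat (K * c) x.1 (cat (K * ℓ) (pf f K v) x.2)) (sh (mp (pf f K) z) (mp (pf f K) a))) ≠ 0 := by
    rw [key]
    exact hne
  intro h0
  apply hne'
  rw [← h0, sh_mp, ev_mp, ev_mp, ev_mp]
  refine ev_congr (P := fun L => ∀ x ∈ L, x.1 ∈ P x' (y' (!b)) c ∧ x.2 ∈ P (y' b) (y' b) s)
    (fun L hL => ?_) ?_
  · rw [List.map_map, List.map_map]
    congr 1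
    refine List.map_congr_left fun x hx => ?_
    obtain ⟨h1, h2⟩ := hL x hx
    have m1 := cat_mem hℓ hs hv h2
    have g1 : v ℓ = x.2 0 := by rw [eq_right hv le_rfl, eq_left h2 le_rfl]
    have g2 : x.1 c = cat ℓ v x.2 0 := by rw [eq_right h1 le_rfl, eq_left m1 le_rfl]
    show cat (K * c) (pf f K x.1) (cat (K * ℓ) (pf f K v) (pf f K x.2)) =
      pf f K (cat c x.1 (cat ℓ v x.2))
    rw [F.pf_cat h1.1 m1.1 g2, F.pf_cat hv.1 h2.1 g1]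
  · exact sh_mem (fun S T L hS hT hL x hx => ⟨hS.2.1 _ (hL.2 x hx).1, hT.2.1 _ (hL.2 x hx).2⟩)
      hz1.1 ha1.1

end

end Vale.Agent.P216.H971T
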