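import Vale.Agent.P216.H971T.Nx2

/-!
# P216-T, row Nx (3): cycles of loops of `N` whose images cross a point of `A`
-/

set_option linter.all false

open Finsupp Set BoundedContinuousFunction

namespace Vale.Agent.P216.H971T

open Vale.Agent.P216.Sl Vale.Agent.P216.PS Vale.Agent.P216.N929 Vale.Agent.P216.H977C

variable {A N : Type} [MetricSpace A] [CompactSpace A] [MetricSpace N] [CompactSpace N]
  {k : Type} [Field k] {n : ℕ} {f : N → A} {K : ℝ}

omit [CompactSpace N] in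
/-- The step of the unit, on images: the class `η` of the pulled back cocycle. -/
theorem stp_pf {ρ₁ : ℝ} (τ : Tau k A n ρ₁) (F : LipK f K) {r : ℝ} {y : A} (M : ℕ)
    {l : List (ℝ →ᵇ N)} (hl : l.length = n) (hL : ∀ w ∈ l, Lip w) :
    stp n τ.f r (K * (1 / ((M : ℝ) + 1))) y (one1 k _) (l.map (pf f K)) =
      H140.eta M (fun l => τ.f (l.map fun x => (f x, y))) l := by
  have hK := F.1
  unfold stp H140.eta fibI
  refine finsum_congr fun j => ?_
  rw [N929.fib, N929.fib]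
  have e1 : edge k (K * (1 / ((M : ℝ) + 1))) j = mp (fun t => K * t) (edge k (1 / ((M : ℝ) + 1)) j) := by
    unfold edge
    rw [mp_single, List.map_cons, List.map_cons, List.map_nil]
    congr 2
    · ring
    · congr 1
      ring
  have e2 : (single (l.map (pf f K)) (1 : k)) = mp (pf f K) (single l 1) := by rw [mp_single]
  rw [e1, e2, sh_mp, ev_mp]
  refine ev_congr (P := fun L : List ((ℝ →ᵇ N) × ℝ) => L.length = n + 1 ∧ ∀ x ∈ L, Lip x.1)
    (fun L hL' => ?_) ?_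
  · rw [D337.intg_one (by rw [List.length_map, hL'.1]), List.map_map]
    show _ = τ.f ((L.map H140.evw).map fun x => (f x, y))
    rw [List.map_map]
    congr 1
    refine List.map_congr_left fun x hx => ?_
    show (pf f K x.1 (K * x.2), y) = (f (x.1 x.2), y)
    rw [F.pf_apply (hL'.2 x hx), mul_div_cancel_left₀ _ hK.ne']
  · refine sh_mem (P := fun s => s = l) (Q := fun t : List ℝ => t.length = 2)
      (fun s t L hs ht hL' => ?_) (single_mem (P := fun s => s = l) rfl _) ?_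
    · have h1 := hL'.1
      rw [hs, ht] at h1
      refine ⟨by omega, fun x hx => hL x.1 ?_⟩
      have := (hL'.2 x hx).1
      rwa [hs] at this
    · exact single_mem (P := fun t : List ℝ => t.length = 2) rfl 1

/-- **The cycles of loops of `N`** whose images cross `G.y (!b)` once. -/
theorem ha_f (G : Geo A n) (τ : Tau k A n G.ρ₁) (F : LipK f K) {y' : Bool → N}
    (hy' : ∀ b, f (y' b) = G.y b)
    (hne : ∀ y : A, ¬ ExL (univ : Set N) n fun l => τ.f (l.map fun x => (f x, y)))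
    {s : ℝ} (hs : 0 ≤ s)
    (hE : ∀ (ξ : List N → k) (ε : ℝ), 0 < ε → Nrm ξ →
      Coc (univ : Set N) ε n ξ → ¬ ExL (univ : Set N) n ξ → ∀ M : ℕ, 1 / ((M : ℝ) + 1) < ε / 4 →
        ∀ a b : N, ¬ ExL (P a b s) (n - 1) (H140.eta M ξ)) (b : Bool) :
    ∃ ε₁ > 0, ∀ ε, 0 < ε → ε ≤ ε₁ → ∃ a : Ch k (ℝ →ᵇ N),
      Cy (P (y' b) (y' b) s) ε (n - 1) a ∧ ∀ ι, Edge 0 (K * s) (K * ε) ι →
        ev (fun l => τ.f (l.map (evp (G.y (!b))))) (sh (mp (pf f K) a) ι) = 1 := by
  have hn := G.hn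
  have hK := F.1
  obtain ⟨η₀, h1⟩ := exists_scl (y := G.y (!b)) τ G.h1r (cutMod G.seg G.hr G.hrρ _)
    (D337.etaOne k A).hε
  have hε₀ : 0 < τ.ε / K := div_pos τ.hε hK
  obtain ⟨M, hM⟩ := exists_nat_one_div_lt (lt_min (div_pos h1.pos hK)
    (show 0 < τ.ε / K / 4 by linarith))
  have hM1 : K * (1 / ((M : ℝ) + 1)) < η₀ := by
    have := hM.trans_le (min_le_left _ _)
    rw [lt_div_iff₀ hK] at this
    linarith
  have hM0 : 0 < K * (1 / ((M : ℝ) + 1)) := by positivity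
  set ξ : List N → k := fun l => τ.f (l.map fun x => (f x, G.y (!b))) with hξ
  have hc : Coc (univ : Set N) (τ.ε / K) n ξ := by
    intro l hl hs'
    rw [hξ, N929.dl_map]
    refine τ.coc _ (by rw [List.length_map, hl]) ⟨fun _ _ => mem_univ _, fun x hx y hy => ?_⟩
    obtain ⟨a, ha, rfl⟩ := List.mem_map.1 hx
    obtain ⟨b, hb, rfl⟩ := List.mem_map.1 hy
    have h2 := hs'.2 a ha b hb
    rw [lt_div_iff₀ hK] at h2
    have h3 := F.2 a b
    rw [Prod.dist_eq, dist_self]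
    exact max_lt (by linarith) τ.hε
  have hx := hE ξ (τ.ε / K) hε₀ (τ.nrm.map _) hc (hne _) M (hM.trans_le (min_le_right _ _))
    (y' b) (y' b)
  rw [not_ex_iff] at hx
  refine ⟨η₀ / K, div_pos h1.pos hK, fun ε hε hε' => ?_⟩
  have hKε : 0 < K * ε := mul_pos hK hε
  have hKε' : K * ε ≤ η₀ := by
    rw [le_div_iff₀ hK] at hε'
    linarith
  obtain ⟨Y, hY, hYne⟩ := hx ε hε
  have hYA : Cy (P (G.y b) (G.y b) (K * s)) (K * ε) (n - 1) (mp (pf f K) Y) := by
    have := F.cy hY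
    rwa [hy'] at this
  have e0 : ev (stp n τ.f G.r (K * (1 / ((M : ℝ) + 1))) (G.y (!b)) (D337.etaOne k A).f)
      (mp (pf f K) Y) = ev (H140.eta M ξ) Y := by
    rw [ev_mp]
    exact ev_congr (fun l hl => stp_pf τ F M (by rw [hl.1]; omega)
      fun w hw => (hl.2.1 w hw).1) hY.1
  have key : ∀ ι', Edge 0 (K * s) (K * ε) ι' →
      ev (fun l => τ.f (l.map (evp (G.y (!b))))) (sh (mp (pf f K) Y) ι') =
      ev (H140.eta M ξ) Y := fun ι' hι' => by
    rw [← e0, stp_eval τ G.seg G.hr G.hrρ G.hn (m := n - 1) (d := 0) (by omega) h1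
      (G.hy b) (fun T => (D337.etaOne k A).coc _ _ T) hM0 hM1 (mul_nonneg hK.le hs) le_rfl
      hKε hKε' hYA hι']
    refine ev_congr (fun L hL => ?_) (Sg.Sp_SmL_sh (q := 1) hYA.1 hι'.1)
    exact (D337.aL_one G τ (by have := hL.1; omega)).symm
  refine ⟨(ev (H140.eta M ξ) Y)⁻¹ • Y, ⟨Submodule.smul_mem _ _ hY.1, ?_⟩, fun ι' hι' => ?_⟩
  · rw [map_smul]
    exact Submodule.smul_mem _ _ hY.2
  · rw [map_smul, map_smul, LinearMap.smul_apply, map_smul, smul_eq_mul, key ι' hι',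
      inv_mul_cancel₀ hYne]

end Vale.Agent.P216.H971T
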